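import Mathlib.Topology.MetricSpace.Basic
import Mathlib.Algebra.Ring.Periodic

/-!
Geodesics of a metric space: curves `ℝ → M` of constant speed which locally realise the distance.
-/

namespace Vale.Agent.P216

variable {M : Type*} [MetricSpace M]

/-- `c : ℝ → M` has constant speed `v` and is locally distance realising. -/
def IsGeodesicWithSpeed (c : ℝ → M) (v : ℝ) : Prop :=
  ∀ t : ℝ, ∃ ε > 0, ∀ s s' : ℝ, |s - t| < ε → |s' - t| < ε → dist (c s) (c s') = v * |s - s'|

/-- A nonconstant geodesic. -/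
def IsGeodesic (c : ℝ → M) : Prop := ∃ v > 0, IsGeodesicWithSpeed c v

/-- A prime closed geodesic `c` of (minimal) period `τ`. -/
def IsPrimeClosedGeodesic (c : ℝ → M) (τ : ℝ) : Prop :=
  IsGeodesic c ∧ 0 < τ ∧ Function.Periodic c τ ∧
    ∀ τ' : ℝ, 0 < τ' → τ' < τ → ¬ Function.Periodic c τ'

variable (M) in
/-- The set of images of the prime closed geodesics of `M`. -/
def primeClosedGeodesicImages : Set (Set M) :=
  {S | ∃ (c : ℝ → M) (τ : ℝ), IsPrimeClosedGeodesic c τ ∧ S = Set.range c}

end Vale.Agent.P216
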